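import Vale.Agent.P309.H362.Defs
import Vale.Agent.P309.H362.Main

/-!
# P309: the least horizon down to the memory threshold, and the strong converse
-/

open P309

/-- For every `C₀` and all `M ≤ C₀ d²`, with `Λ = log (1/ε)`: learners which succeed read at least
`c d Λ` samples; with less than `c d Λ` samples the success probability is at most `exp (-d/16)`;
the least horizon is infinite for `M ≤ (d - 1) log₂ (1/ε) - 4 d`, where for learners with fixed output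
rule the success probability is at most `exp (-d/16)` for every horizon; it is between `c d Λ` and
`C d Λ` for `M ≥ (d - 1) log₂ (1/ε) + (2 C₀ + 16) d` and `Λ ≥ log d log log d`; for
`M ≥ d log₂ (1/ε) + (15 + A) d` it is at most `C d (Λ + log d log (1 + Λ/A))`, with a learner which
succeeds for every signal; and it is at most `20 d Λ` for `M ≥ d log₂ (d/ε) + 11 d`. -/
theorem Vale.Agent.Results.P309.MemoryThreshold.result :
    ∃ C : ℝ, 0 < C ∧ ∀ C₀ : ℝ, 0 < C₀ →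
    ∃ c : ℝ, 0 < c ∧ ∃ d₀ : ℕ, ∃ ε₀ : ℝ, 0 < ε₀ ∧ ε₀ < 1 ∧
      ∀ d : ℕ, d₀ ≤ d → ∀ ε : ℝ, 0 < ε → ε ≤ ε₀ → ∀ M : ℕ, (M : ℝ) ≤ C₀ * (d : ℝ) ^ 2 →
        (∀ (T : ℕ) (L : Learner (EuclideanSpace ℝ (Fin d)) (2 ^ M)), L.Succeeds T ε →
          c * d * Real.log (1 / ε) ≤ T) ∧
        (∀ (T : ℕ) (L : Learner (EuclideanSpace ℝ (Fin d)) (2 ^ M)),
          (T : ℝ) < c * d * Real.log (1 / ε) →
          L.successProb T ε ≤ ENNReal.ofReal (Real.exp (-((d : ℝ) / 16)))) ∧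
        ((M : ℝ) ≤ (d - 1) * Real.logb 2 (1 / ε) - 4 * d → leastHorizon d M ε = ⊤ ∧
          ∀ (T : ℕ) (L : Learner (EuclideanSpace ℝ (Fin d)) (2 ^ M)), L.FixedOutput →
            L.successProb T ε ≤ ENNReal.ofReal (Real.exp (-((d : ℝ) / 16)))) ∧
        ((d - 1) * Real.logb 2 (1 / ε) + (2 * C₀ + 16) * d ≤ M →
          Real.log d * Real.log (Real.log d) ≤ Real.log (1 / ε) →
          ∃ T : ℕ, leastHorizon d M ε = (T : ℕ∞) ∧
            c * d * Real.log (1 / ε) ≤ T ∧ (T : ℝ) ≤ C * d * Real.log (1 / ε)) ∧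
        (∀ A : ℝ, 1 ≤ A → d * Real.logb 2 (1 / ε) + (15 + A) * d ≤ M →
          ∃ T T' : ℕ, leastHorizon d M ε = (T : ℕ∞) ∧ c * d * Real.log (1 / ε) ≤ T ∧ T ≤ T' ∧
            (T' : ℝ) ≤ C * d * (Real.log (1 / ε) +
              Real.log d * Real.log (1 + Real.log (1 / ε) / A)) ∧
            ∃ L : Learner (EuclideanSpace ℝ (Fin d)) (2 ^ M), L.FixedOutput ∧
              ∀ s : EuclideanSpace ℝ (Fin d), ‖s‖ = 1 → 2 / 3 ≤ L.successAt T' ε s) ∧
        (d * Real.logb 2 (d / ε) + 11 * d ≤ M → ∃ T : ℕ, leastHorizon d M ε = (T : ℕ∞) ∧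
          c * d * Real.log (1 / ε) ≤ T ∧ (T : ℝ) ≤ 20 * d * Real.log (1 / ε)) :=
  LMS.main
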