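import Vale.Agent.P309.H700.Defs
import Vale.Agent.P309.H700.Main

/-!
# P309: the number of samples for every memory size, with or without a horizon
-/

open P309

/-- First part: the lower bound `c d log (1/ε)` of Q1 for every constant in `M = O(d²)`.
Second part, for every memory size `M`, with `R = 10⁻⁶ d (1 + d² log (1/ε) / (d² + M))`: learners
which succeed (with a horizon `T` or without horizon) have `T ≥ R` and read at least `R` samples in
expectation.  With `B = d log (1/ε) / (6000 (1 + M / d²))` and `δ = exp (-d/16)`, if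
`M ≤ d² log (1/ε) / 6000`: the success probability is at most `δ` for every horizon `T < B`, and for
learners without horizon it is at most `δ` plus the probability that more than `T` samples are read;
every learner with success probability `p` reads at least `B (p - δ)` samples in expectation.  The
least horizon is infinite for `M ≤ (d - 1) log₂ (1/ε) - 4 d`; upper bounds above this threshold. -/
theorem Vale.Agent.Results.P309.ProductLaw.result :
    (∀ C₀ : ℝ, 0 < C₀ → ∃ c : ℝ, 0 < c ∧ ∃ d₀ : ℕ, ∃ ε₀ : ℝ, 0 < ε₀ ∧ ε₀ < 1 ∧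
      ∀ d : ℕ, d₀ ≤ d → ∀ ε : ℝ, 0 < ε → ε ≤ ε₀ → ∀ M : ℕ, (M : ℝ) ≤ C₀ * (d : ℝ) ^ 2 →
        ∀ (T : ℕ) (L : Learner (EuclideanSpace ℝ (Fin d)) (2 ^ M)), L.Succeeds T ε →
          c * d * Real.log (1 / ε) ≤ T) ∧
    (∀ d M : ℕ, ∀ ε R B δ : ℝ, 32768 ≤ d → 0 < ε → ε ≤ Real.exp (-360) →
      R = d * (1 + (d : ℝ) ^ 2 * Real.log (1 / ε) / ((d : ℝ) ^ 2 + M)) / 10 ^ 6 →
      B = d * Real.log (1 / ε) / (6000 * (1 + M / (d : ℝ) ^ 2)) → δ = Real.exp (-((d : ℝ) / 16)) →
        (∀ (T : ℕ) (L : Learner (EuclideanSpace ℝ (Fin d)) (2 ^ M)), L.Succeeds T ε →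
          R ≤ T ∧ ENNReal.ofReal R ≤ L.meanSamples T) ∧
        (∀ L : Learner (EuclideanSpace ℝ (Fin d)) (2 ^ M), 2 / 3 ≤ L.successInf ε →
          ENNReal.ofReal R ≤ L.meanSamplesInf) ∧
        ((M : ℝ) ≤ (d : ℝ) ^ 2 * Real.log (1 / ε) / 6000 →
          ∀ L : Learner (EuclideanSpace ℝ (Fin d)) (2 ^ M),
            (∀ T : ℕ, (T : ℝ) < B → L.successProb T ε ≤ ENNReal.ofReal δ ∧
              L.successInf ε ≤ L.tail T + ENNReal.ofReal δ) ∧
            (∀ T : ℕ, ENNReal.ofReal B * (L.successProb T ε - ENNReal.ofReal δ) ≤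
              L.meanSamples T) ∧
            ENNReal.ofReal B * (L.successInf ε - ENNReal.ofReal δ) ≤ L.meanSamplesInf) ∧
        ((M : ℝ) ≤ (d - 1) * Real.logb 2 (1 / ε) - 4 * d → leastHorizon d M ε = ⊤) ∧
        (∀ A : ℝ, 1 ≤ A → d * Real.logb 2 (1 / ε) + (15 + A) * d ≤ M →
          ∃ T : ℕ, leastHorizon d M ε = (T : ℕ∞) ∧ R ≤ T ∧
            (T : ℝ) ≤ 2 * 10 ^ 9 * d * (Real.log (1 / ε) +
              Real.log d * Real.log (1 + Real.log (1 / ε) / A))) ∧
        (d * Real.logb 2 (d / ε) + 11 * d ≤ M → ∃ T : ℕ, leastHorizon d M ε = (T : ℕ∞) ∧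
          R ≤ T ∧ (T : ℝ) ≤ 20 * d * Real.log (1 / ε))) :=
  F700.main
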