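import Vale.Agent.P309.H362.ReadsDefs
import Vale.Agent.P309.H362.Reads

/-!
# P309: lower bounds for the number of samples read, at every horizon
-/

open P309

/-- For every `C₀` and all `M ≤ C₀ d²`, `Λ = log (1/ε)`: learners which succeed have horizon at least
`c d Λ`; whatever the horizon, a learner which succeeds reads on average at least `c d Λ` samples, and
the probability that a learner reads fewer than `c d Λ` samples and outputs a vector within angle `ε`
of the signal is at most `exp (-d/16)`; with a horizon below `c d Λ` the success probability is at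
most `exp (-d/16)`; for `M ≥ d log₂ (d/ε) + 11 d` both the least horizon and the least expected number
of samples are between `c d Λ` and `20 d Λ`; for `M ≤ (d - 1) log₂ (1/ε) - 4 d` the least horizon is
infinite. -/
theorem Vale.Agent.Results.P309.SamplesRead.result :
    ∀ C₀ : ℝ, 0 < C₀ →
    ∃ c : ℝ, 0 < c ∧ ∃ d₀ : ℕ, ∃ ε₀ : ℝ, 0 < ε₀ ∧ ε₀ < 1 ∧
      ∀ d : ℕ, d₀ ≤ d → ∀ ε : ℝ, 0 < ε → ε ≤ ε₀ → ∀ M : ℕ, (M : ℝ) ≤ C₀ * (d : ℝ) ^ 2 →
        (∀ (T : ℕ) (L : Learner (EuclideanSpace ℝ (Fin d)) (2 ^ M)), L.Succeeds T ε →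
          c * d * Real.log (1 / ε) ≤ T) ∧
        ENNReal.ofReal (c * d * Real.log (1 / ε)) ≤ leastMean d M ε ∧
        (∀ (T : ℕ) (L : Learner (EuclideanSpace ℝ (Fin d)) (2 ^ M)),
          L.earlyProb T ε ⌈c * d * Real.log (1 / ε)⌉₊ ≤
            ENNReal.ofReal (Real.exp (-((d : ℝ) / 16)))) ∧
        (∀ (T : ℕ) (L : Learner (EuclideanSpace ℝ (Fin d)) (2 ^ M)),
          (T : ℝ) < c * d * Real.log (1 / ε) →
          L.successProb T ε ≤ ENNReal.ofReal (Real.exp (-((d : ℝ) / 16)))) ∧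
        (d * Real.logb 2 (d / ε) + 11 * d ≤ M →
          (∃ T : ℕ, leastHorizon d M ε = (T : ℕ∞) ∧
            c * d * Real.log (1 / ε) ≤ T ∧ (T : ℝ) ≤ 20 * d * Real.log (1 / ε)) ∧
          leastMean d M ε ≤ ENNReal.ofReal (20 * d * Real.log (1 / ε))) ∧
        ((M : ℝ) ≤ (d - 1) * Real.logb 2 (1 / ε) - 4 * d → leastHorizon d M ε = ⊤) :=
  LMS.main_reads
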